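import Vale.Agent.P004.H26.Twist17
import Vale.Agent.P004H.H871.FE
import Vale.Agent.P014.H687.Inst

/-!
# P004, `X_0(17)`: the functional equations of all quadratic twists
-/

namespace Vale.Agent.P004.H26

open P004G P004G.ML
open Vale.Agent.P004H.H742 (kron k2)
open Vale.Agent.P004H.H871 (fd_of_fund1 kron_eq kr_neg_one RC Fd kr kr_rc kr_mul kr_odd)

/-- the conductor of the twist by `D` -/
def cond (D : ℤ) : ℝ := if (17 : ℤ) ∣ D then (D : ℝ) ^ 2 else 17 * (D : ℝ) ^ 2

/-- the root number of the twist by `D`: `χ_D(-17)` if `17 ∤ D`, `-χ_D(-1)` if `17 ∣ D` -/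
noncomputable def root (D : ℤ) : ℤ :=
  (if 0 < D then 1 else -1) * (if (17 : ℤ) ∣ D then -1 else jacobiSym D 17)

lemma cond_pos {D : ℤ} (hD : D ≠ 0) : 0 < cond D := by
  unfold cond
  have : (0 : ℝ) < (D : ℝ) ^ 2 := by positivity
  split_ifs <;> positivity

lemma cond_le (D : ℤ) : cond D ≤ 17 * (D : ℝ) ^ 2 := by
  unfold cond
  have : (0 : ℝ) ≤ (D : ℝ) ^ 2 := by positivity
  split_ifs <;> linarith

lemma le_cond (D : ℤ) : (D : ℝ) ^ 2 / 17 ≤ cond D := by
  unfold cond
  have : (0 : ℝ) ≤ (D : ℝ) ^ 2 := by positivity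
  split_ifs <;> linarith

lemma root_pm (D : ℤ) : root D = 1 ∨ root D = -1 := by
  unfold root
  by_cases h : (17 : ℤ) ∣ D
  · rw [if_pos h]
    split_ifs <;> norm_num
  · rw [if_neg h]
    have h1 : Int.gcd D 17 = 1 := by
      rw [← Int.isCoprime_iff_gcd_eq_one]
      exact (((Nat.prime_iff_prime_int.1 (by norm_num : Nat.Prime 17)).coprime_iff_not_dvd).2 h).symm
    rcases jacobiSym.eq_one_or_neg_one h1 with h2 | h2 <;> rw [h2] <;> split_ifs <;> norm_num

variable {F : ℂ → ℂ} {a : ℕ → ℤ}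

/-- **the functional equations of all quadratic twists** -/
theorem fe_all (h : Form F a) (h0 : a 0 = 0) {D : ℤ} (hD : Fd D) (A : ℕ → ℤ)
    (hA : ∀ n, A n = a n * kron D n) {y : ℝ} (hy : 0 < y) :
    ∑' n : ℕ, (A n : ℝ) * Real.exp (-2 * Real.pi * n * (1 / (cond D * y))) =
      root D * cond D * y ^ 2 * ∑' n : ℕ, (A n : ℝ) * Real.exp (-2 * Real.pi * n * y) := by
  have hm : NeZero D.natAbs := ⟨Int.natAbs_ne_zero.2 hD.ne⟩
  have hc := kr_rc hD
  have e : ∀ t : ℝ, ∑' n : ℕ, (A n : ℝ) * Real.exp (-2 * Real.pi * n * t) = fD a (kr D) t := by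
    intro t
    unfold fD
    refine tsum_congr fun n => ?_
    rcases eq_or_ne n 0 with rfl | hn
    · rw [hA, h0]
      simp
    · rw [hA, kron_eq hD hn]
  have hm2 : ((D.natAbs : ℕ) : ℝ) ^ 2 = (D : ℝ) ^ 2 := by
    rw [Nat.cast_natAbs, Int.cast_abs, sq_abs]
  rw [e, e]
  by_cases h17 : (17 : ℤ) ∣ D
  · have h1 := fe2 h hc (by omega) hy
    rw [hm2, kr_neg_one hD] at h1
    unfold cond root
    rw [if_pos h17, if_pos h17, h1]
    push_cast
    ring
  · have hp : Nat.Prime 17 := by norm_num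
    have hco : D.natAbs.Coprime 17 := ((Nat.Prime.coprime_iff_not_dvd hp).2 (by omega)).symm
    have h1 := fe1 h hc hco hy
    have e17 : kr D (-17) = (if 0 < D then 1 else -1) * jacobiSym D 17 := by
      rw [show (-17 : ℤ) = -1 * ((17 : ℕ) : ℤ) by norm_num, kr_mul hD, kr_neg_one hD,
        kr_odd hD (by decide)]
    rw [hm2, e17] at h1
    unfold cond root
    rw [if_neg h17, if_neg h17, h1]


open Vale.Agent.P014.H687 Vale.Agent.P014.H70 in
/-- the form of level `17` is a form in the sense of this file -/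
theorem form17 : Form (Vale.Agent.P014.H687.Fc Th3) (an r3) where
  slash := fun p q r s hdet hr z hz => by
    obtain ⟨c, rfl⟩ := hr
    have h := (F_form' T3).mob p q c s (by linarith) z hz
    push_cast at h ⊢
    exact h
  fricke := fun z hz => by
    have h := (F_form' T3).W z hz
    rw [h]
  qexp := fun z hz => by
    have h := (F_form' T3).sum z hz
    refine h.congr_fun fun n => ?_
    congr 1
    unfold Vale.Agent.P004H.H204.qq
    rw [← Complex.exp_nat_mul]
    congr 1
    ring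

open Vale.Agent.P014.H687 Vale.Agent.P014.H70 in
/-- the functional equation in the form of `P004G.FEt` -/
theorem fet {D A B : ℤ} (hD : Fund1 D) (hL : ∀ n, LA A B n = an r3 n * kron D n) :
    FEt A B (cond D) (root D) := fun _ hy =>
  fe_all form17 (an_zero T3) (fd_of_fund1 hD) (fun n => LA A B n) hL hy

end Vale.Agent.P004.H26
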