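import Vale.Agent.P004H.H641.Transfer
import Vale.Agent.P004.H26.FE17
import Vale.Agent.P014.H687.Hasse

/-!
# P004, `X_0(17)`: `Modl` and the parity of the analytic rank for every curve whose fundamental
twists have the `L`-functions of the twists of the form of level `17`
-/

namespace Vale.Agent.P004.H26

open P004G P004G.ML
open Vale.Agent.P004H.H742 (kron k2 kron_one kron_odd kron_two_pow)
open Vale.Agent.P004H.H641 (sqp sqp_spec sqp_eq sqp_size abs_Dm_int Fund1_ne sqp_mul_sq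
  kron_abs SameL LA_scale)
open Vale.Agent.P014.H687 Vale.Agent.P014.H70
open _root_.P004 (IsFund Fam)
open scoped NumberTheorySymbols

/-- `y² = x³ + A x + B`: the `L`-functions of its fundamental twists are the twists of the form -/
structure Cls (A B : ℤ) : Prop where
  disc : 4 * A ^ 3 + 27 * B ^ 2 ≠ 0
  lf : ∀ D : ℤ, Fund1 D → ∀ n : ℕ, LA (A * D ^ 2) (B * D ^ 3) n = an r3 n * kron D n

/-- the coefficients of the twist by `D` -/
noncomputable def TW17 (A B D : ℤ) (n : ℕ) : ℤ := LA (A * D ^ 2) (B * D ^ 3) n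

variable {A B : ℤ}

/-- `D² s⁴`: the twists by `m s²` and by `m` have the same `L`-function -/
lemma T_sq (h : Cls A B) {m s : ℤ} (hm : m ≠ 0) (hs : s ≠ 0) (n : ℕ) :
    TW17 A B (m * s ^ 2) n = TW17 A B m n := by
  unfold TW17
  rw [← LA_scale (a := A * m ^ 2) (b := B * m ^ 3) (u := s) ?_ hs n]
  · congr 1 <;> ring
  · have h1 : 4 * (A * m ^ 2) ^ 3 + 27 * (B * m ^ 3) ^ 2 =
        (4 * A ^ 3 + 27 * B ^ 2) * m ^ 6 := by ring
    rw [h1]
    exact mul_ne_zero h.disc (pow_ne_zero 6 hm)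

/-- the twist by `n` and by the discriminant of `ℚ(√n)` -/
lemma T_Dm (h : Cls A B) {m : ℤ} (hm : m ≠ 0) (n : ℕ) : TW17 A B (Dm m) n = TW17 A B m n := by
  unfold Dm
  split_ifs
  · rfl
  · rw [show 4 * m = m * 2 ^ 2 by ring, T_sq h hm (by norm_num)]

lemma T_sqp (h : Cls A B) {n : ℤ} (hn : n ≠ 0) (k : ℕ) :
    TW17 A B n k = TW17 A B (Dm (sqp n)) k := by
  obtain ⟨h1, s, h2, h3⟩ := sqp_spec hn
  rw [T_Dm h h1.ne_zero]
  conv_lhs => rw [h2]
  exact T_sq h h1.ne_zero h3 k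

lemma an_hasse' {p : ℕ} (hp : p.Prime) : (an r3 p) ^ 2 ≤ 4 * p := by
  rcases eq_or_ne p 17 with rfl | h17
  · rw [an_17 T3]; norm_num
  · exact an_hasse hp h17

lemma T_hasse (h : Cls A B) {D : ℤ} (hD : Fund1 D) {p : ℕ} (hp : p.Prime) :
    (TW17 A B D p) ^ 2 ≤ 4 * p := by
  unfold TW17
  rw [h.lf D hD p, mul_pow]
  have h1 := an_hasse' hp
  have h2 := kron_abs D hp
  have h3 : 0 ≤ (an r3 p) ^ 2 := sq_nonneg _
  nlinarith

/-- the root number of the twist of `X_0(17)` by `D` (or by a squarefree integer) -/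
noncomputable def kap (D : ℤ) : ℤ := if (17 : ℤ) ∣ D then - D.sign else D.sign * J(D | 17)

lemma kap_Dm (m : ℤ) : kap (Dm m) = kap m := by
  unfold Dm
  split_ifs with h
  · rfl
  · unfold kap
    have h1 : (17 : ℤ) ∣ 4 * m ↔ (17 : ℤ) ∣ m := by omega
    have h2 : (4 * m).sign = m.sign := by
      rw [Int.sign_mul, show Int.sign 4 = 1 from rfl, one_mul]
    have h3 : J(4 * m | 17) = J(m | 17) := by
      rw [jacobiSym.mul_left]
      have : J(4 | 17) = 1 := by
        have h4 : (4 : ℤ) = 2 ^ 2 := by norm_num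
        rw [h4, jacobiSym.pow_left]
        exact jacobiSym.sq_one (by norm_num)
      rw [this, one_mul]
    simp only [h1, h2, h3]

lemma kap_cases {D : ℤ} (hD : D ≠ 0) : kap D = 1 ∨ kap D = -1 := by
  have hs : D.sign = 1 ∨ D.sign = -1 := by
    rcases lt_trichotomy D 0 with h | h | h
    · right; exact Int.sign_eq_neg_one_of_neg h
    · exact absurd h hD
    · left; exact Int.sign_eq_one_of_pos h
  unfold kap
  split_ifs with h
  · rcases hs with h1 | h1 <;> rw [h1] <;> norm_num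
  · have h2 : J(D | 17) = 1 ∨ J(D | 17) = -1 := by
      rcases jacobiSym.trichotomy D 17 with h3 | h3 | h3
      · exfalso
        have h4 := jacobiSym.eq_zero_iff_not_coprime.1 h3
        apply h4
        have h5 : IsCoprime D 17 := by
          rw [isCoprime_comm]
          exact (Prime.coprime_iff_not_dvd (Int.prime_iff_natAbs_prime.2 (by norm_num))).2 h
        exact Int.isCoprime_iff_gcd_eq_one.1 h5
      · exact Or.inl h3
      · exact Or.inr h3
    rcases hs with h1 | h1 <;> rcases h2 with h3 | h3 <;> rw [h1, h3] <;> norm_num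

lemma root_eq {D : ℤ} (hD : D ≠ 0) : root D = kap D := by
  unfold root kap
  have hs : (if 0 < D then (1 : ℤ) else -1) = D.sign := by
    split_ifs with h
    · exact (Int.sign_eq_one_of_pos h).symm
    · exact (Int.sign_eq_neg_one_of_neg (by omega)).symm
  rw [hs]
  split_ifs with h17 <;> ring

lemma T_fe (h : Cls A B) {D : ℤ} (hD : Fund1 D) :
    ∃ N : ℝ, (D : ℝ) ^ 2 ≤ N ∧ N ≤ 17 * (D : ℝ) ^ 2 ∧
      FEt (A * D ^ 2) (B * D ^ 3) N (kap D) := by
  refine ⟨cond D, ?_, cond_le D, ?_⟩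
  · unfold cond
    have := sq_nonneg (D : ℝ)
    split_ifs <;> linarith
  rw [← root_eq (Fund1_ne hD)]
  exact fet hD (h.lf D hD)

lemma arg_eq (A B d D : ℤ) : A * d ^ 2 * D ^ 2 = A * (d * D) ^ 2 ∧
    B * d ^ 3 * D ^ 3 = B * (d * D) ^ 3 := ⟨by ring, by ring⟩

/-- **`Modl` for all twists** -/
theorem modl_all (h : Cls A B) {d : ℤ} (hd : d ≠ 0) :
    Modl (A * d ^ 2) (B * d ^ 3) where
  hasse D hD p hp := by
    rw [(arg_eq A B d D).1, (arg_eq A B d D).2]
    have hn : d * D ≠ 0 := mul_ne_zero hd (Fund1_ne hD)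
    have h1 := T_sqp h hn p
    unfold TW17 at h1
    rw [h1]
    exact T_hasse h (fund1_Dm (sqp_spec hn).1) hp
  fe := by
    refine ⟨(64 * |(d : ℝ)|) ^ 2 * 17, ?_, fun D hD => ?_⟩
    · have h1 : (1 : ℝ) ≤ |(d : ℝ)| := by
        have : 1 ≤ |d| := Int.one_le_abs hd
        exact_mod_cast this
      nlinarith
    · have hn : d * D ≠ 0 := mul_ne_zero hd (Fund1_ne hD)
      set D' := Dm (sqp (d * D)) with hD'
      have hF : Fund1 D' := fund1_Dm (sqp_spec hn).1
      obtain ⟨N, hN1, hN2, hFE⟩ := T_fe h hF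
      have hκ : (((kap D' : ℤ) : ℝ) = 1 ∨ ((kap D' : ℤ) : ℝ) = -1) := by
        rcases kap_cases (Fund1_ne hF) with h4 | h4 <;> rw [h4] <;> norm_num
      have hD0 : (D' : ℝ) ≠ 0 := by exact_mod_cast Fund1_ne hF
      have hN0 : 0 < N := lt_of_lt_of_le (by positivity) hN1
      obtain ⟨s1, s2⟩ := sqp_size hd hD
      obtain ⟨t1, t2⟩ := abs_Dm_int (sqp (d * D))
      have u1 : |(D : ℝ)| ≤ 16 * |(d : ℝ)| * |(D' : ℝ)| := by
        have : |D| ≤ 16 * |d| * |D'| := s1.trans (mul_le_mul_of_nonneg_left t1 (by positivity))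
        exact_mod_cast this
      have u2 : |(D' : ℝ)| ≤ 4 * (|(d : ℝ)| * |(D : ℝ)|) := by
        have : |D'| ≤ 4 * (|d| * |D|) := t2.trans (mul_le_mul_of_nonneg_left s2 (by norm_num))
        exact_mod_cast this
      have v1 : (D : ℝ) ^ 2 ≤ (16 * |(d : ℝ)|) ^ 2 * (D' : ℝ) ^ 2 := by
        rw [← sq_abs (D : ℝ), ← sq_abs (D' : ℝ), ← mul_pow]
        exact pow_le_pow_left₀ (abs_nonneg _) u1 2
      have v2 : (D' : ℝ) ^ 2 ≤ (4 * |(d : ℝ)|) ^ 2 * (D : ℝ) ^ 2 := by
        rw [← sq_abs (D : ℝ), ← sq_abs (D' : ℝ), ← mul_pow]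
        refine pow_le_pow_left₀ (abs_nonneg _) (u2.trans (le_of_eq (by ring))) 2
      have hd0 : 0 < |(d : ℝ)| := by
        rw [abs_pos]; exact_mod_cast hd
      refine ⟨N, kap D', hN0, hκ, ?_, ?_, ?_⟩
      · rw [div_le_iff₀ (by positivity)]
        have w1 : (16 * |(d : ℝ)|) ^ 2 * (D' : ℝ) ^ 2 ≤ (16 * |(d : ℝ)|) ^ 2 * N :=
          mul_le_mul_of_nonneg_left hN1 (by positivity)
        have w2 : 0 ≤ |(d : ℝ)| ^ 2 * N := by positivity
        nlinarith
      · have w1 : 17 * (D' : ℝ) ^ 2 ≤ 17 * ((4 * |(d : ℝ)|) ^ 2 * (D : ℝ) ^ 2) :=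
          mul_le_mul_of_nonneg_left v2 (by norm_num)
        have w2 : 0 ≤ |(d : ℝ)| ^ 2 * (D : ℝ) ^ 2 := by positivity
        nlinarith
      · intro y hy
        have e1 := hFE y hy
        rw [(arg_eq A B d D).1, (arg_eq A B d D).2]
        have e2 : ∀ n : ℕ, LA (A * (d * D) ^ 2) (B * (d * D) ^ 3) n =
            LA (A * D' ^ 2) (B * D' ^ 3) n := fun n => T_sqp h hn n
        simp only [e2]
        exact e1

/-- quadratic reciprocity for `n ≡ 1 mod 4` of either sign -/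
lemma recip {n : ℤ} (h4 : n % 4 = 1) : J(n | 17) = J(17 | n.natAbs) := by
  rcases le_total 0 n with h | h
  · obtain ⟨k, rfl⟩ := Int.eq_ofNat_of_zero_le h
    rw [Int.natAbs_natCast]
    exact jacobiSym.quadratic_reciprocity_one_mod_four (by omega) (by decide)
  · obtain ⟨k, rfl⟩ : ∃ k : ℕ, n = -(k : ℤ) := ⟨n.natAbs, by omega⟩
    rw [Int.natAbs_neg, Int.natAbs_natCast, jacobiSym.neg _ (by decide)]
    have hk : k % 2 = 1 := by omega
    have h1 : J(((17 : ℕ) : ℤ) | k) = J((k : ℤ) | 17) :=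
      jacobiSym.quadratic_reciprocity_one_mod_four (by norm_num) (Nat.odd_iff.2 hk)
    have h2 : ZMod.χ₄ ((17 : ℕ) : ZMod 4) = 1 := by decide
    rw [← h1, h2]
    push_cast
    ring

open _root_.P004.QN in
/-- the sign of the twists is a twisted character -/
theorem twSign_kap {d : ℤ} (hd : d ≠ 0) :
    TwSign (fun m => kap (sqp (d * m))) (34 * d.natAbs) := by
  intro e he heP
  have he0 : e ≠ 0 := he.ne_zero
  obtain ⟨h1, t, h2, h3⟩ := sqp_spec (mul_ne_zero hd he0)
  set s := sqp (d * e) with hs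
  -- the squarefree part for `e n`
  have hmain : ∀ n : ℤ, Squarefree n → n.natAbs.Coprime (34 * d.natAbs) →
      sqp (d * (e * n)) = s * n ∧ ¬ (17 : ℤ) ∣ n := by
    intro n hn hc
    have hP : IsCoprime n (34 * d) := by
      rw [Int.isCoprime_iff_gcd_eq_one, Int.gcd_eq_natAbs, Int.natAbs_mul]
      exact hc
    have h17 : ¬ (17 : ℤ) ∣ n := by
      intro h17
      have h5 : (17 : ℤ) ∣ 34 * d := ⟨2 * d, by ring⟩
      have := hP.isUnit_of_dvd' h17 h5
      rw [Int.isUnit_iff] at this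
      omega
    refine ⟨?_, h17⟩
    have hne : IsCoprime n e := by
      have h6 : e ∣ 34 * |d| := by
        have : ((34 * d.natAbs : ℕ) : ℤ) = 34 * |d| := by
          push_cast
          rfl
        rw [this] at heP
        exact heP
      have h7 : e ∣ 34 * d := by
        rcases abs_choice d with h | h <;> rw [h] at h6
        · exact h6
        · rw [mul_neg, dvd_neg] at h6
          exact h6
      exact hP.of_isCoprime_of_dvd_right h7
    have hnd : IsCoprime n d := hP.of_isCoprime_of_dvd_right (Dvd.intro_left _ rfl)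
    have hns : IsCoprime n s := by
      refine (hnd.mul_right hne).of_isCoprime_of_dvd_right ?_
      exact ⟨t ^ 2, h2⟩
    have hsq : Squarefree (s * n) := by
      rw [squarefree_mul_iff]
      exact ⟨hns.symm.isRelPrime, h1, hn⟩
    have e1 : d * (e * n) = (s * n) * t ^ 2 := by
      linear_combination n * h2
    rw [e1]
    exact sqp_eq hsq h3
  have habs : ∀ x : ℤ, x ≠ 0 → |kap x| ≤ 1 := by
    intro x hx
    rcases kap_cases hx with h | h <;> rw [h] <;> norm_num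
  by_cases h17 : (17 : ℤ) ∣ s
  · refine ⟨-s.sign, 1, ?_, one_ne_zero, fun n hn hn4 hnc => ?_⟩
    · rw [abs_neg]
      rcases lt_trichotomy s 0 with h | h | h
      · rw [Int.sign_eq_neg_one_of_neg h]; norm_num
      · exact absurd h h1.ne_zero
      · rw [Int.sign_eq_one_of_pos h]; norm_num
    · obtain ⟨e1, -⟩ := hmain n hn hnc
      simp only
      rw [e1]
      unfold kap
      rw [if_pos (Dvd.dvd.mul_right h17 n), Int.sign_mul, Nat.cast_one, jacobiSym.one_left]
      ring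
  · refine ⟨kap s, 17, habs s h1.ne_zero, by norm_num, fun n hn hn4 hnc => ?_⟩
    obtain ⟨e1, e2⟩ := hmain n hn hnc
    simp only
    rw [e1]
    have h17' : ¬ (17 : ℤ) ∣ s * n := by
      intro h
      rcases (Int.prime_iff_natAbs_prime.2 (by norm_num : Nat.Prime (17 : ℤ).natAbs)).dvd_or_dvd h
        with h5 | h5
      · exact h17 h5
      · exact e2 h5
    unfold kap
    rw [if_neg h17, if_neg h17', Int.sign_mul, jacobiSym.mul_left, recip hn4]
    push_cast
    ring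

lemma disc_ne (h : Cls A B) {d : ℤ} (hd : d ≠ 0) :
    4 * (A * d ^ 2) ^ 3 + 27 * (B * d ^ 3) ^ 2 ≠ 0 := by
  have h1 : 4 * (A * d ^ 2) ^ 3 + 27 * (B * d ^ 3) ^ 2 =
      (4 * A ^ 3 + 27 * B ^ 2) * d ^ 6 := by ring
  rw [h1]
  exact mul_ne_zero h.disc (pow_ne_zero 6 hd)

open _root_.P004.QN in
/-- **one half of the twists of `y² = x³ + A d² x + B d³` has odd analytic rank** -/
theorem oddHalf_all (hG : StMLG) (hEnt : StLent) (hPar : StLparity) (h : Cls A B) {d : ℤ}
    (hd : d ≠ 0) : OddHalf (A * d ^ 2) (B * d ^ 3) := by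
  refine oddHalf_of (κ := fun m => kap (sqp (d * m))) (P := 34 * d.natAbs)
    ⟨17 * d.natAbs, by ring⟩ (Nat.mul_ne_zero (by norm_num) (Int.natAbs_ne_zero.2 hd))
    (twSign_kap hd) ?_
  intro D hD
  have hF : Fund1 D := Or.inr hD
  have hD0 : D ≠ 0 := Fund1_ne hF
  have hn : d * D ≠ 0 := mul_ne_zero hd hD0
  have hs : sqp (d * sfk D) = sqp (d * D) := by
    unfold sfk
    split_ifs with h4
    · obtain ⟨k, hk⟩ : ∃ k, D = 4 * k := ⟨D / 4, by omega⟩
      have hk0 : k ≠ 0 := by rintro rfl; exact hD0 (by rw [hk]; ring)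
      have e1 : D / 4 = k := by omega
      rw [e1]
      have e2 : d * D = d * k * 2 ^ 2 := by rw [hk]; ring
      rw [e2, sqp_mul_sq (mul_ne_zero hd hk0) (by norm_num)]
    · rfl
  have hF' : Fund1 (Dm (sqp (d * D))) := fund1_Dm (sqp_spec hn).1
  obtain ⟨N, hN1, hN2, hFE⟩ := T_fe h hF'
  have hD'0 : (((Dm (sqp (d * D)) : ℤ) : ℝ)) ≠ 0 := by exact_mod_cast Fund1_ne hF'
  have hN0 : 0 < N := lt_of_lt_of_le (by positivity) hN1
  have hk : (((kap (Dm (sqp (d * D))) : ℤ) : ℝ) = 1 ∨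
      ((kap (Dm (sqp (d * D))) : ℤ) : ℝ) = -1) := by
    rcases kap_cases (Fund1_ne hF') with h4 | h4 <;> rw [h4] <;> norm_num
  have hLD := ld_of (disc_ne h hd) hG (modl_all h hd) D hF
  have e2 : LA (A * d ^ 2 * D ^ 2) (B * d ^ 3 * D ^ 3) =
      LA (A * (Dm (sqp (d * D))) ^ 2) (B * (Dm (sqp (d * D))) ^ 3) := by
    rw [(arg_eq A B d D).1, (arg_eq A B d D).2]
    exact funext fun n => T_sqp h hn n
  have hfe := feq_of hN0 hk hFE
  rw [← e2] at hfe
  have hr := rank_parity hEnt hPar (a := A * d ^ 2) (b := B * d ^ 3) (D := D)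
    (A := LA (A * d ^ 2 * D ^ 2) (B * d ^ 3 * D ^ 3)) (fun n => rfl) hLD hfe
  rw [kap_Dm] at hr
  simp only [hs]
  rcases kap_cases (sqp_spec hn).1.ne_zero with h4 | h4
  · rw [h4] at hr ⊢
    have hev := hr.1 (by norm_num)
    exact ⟨fun ho => absurd ho (Nat.not_odd_iff_even.2 hev), fun _ => rfl⟩
  · rw [h4] at hr ⊢
    refine ⟨fun _ => rfl, fun he => ?_⟩
    have := hr.2 he
    norm_num at this

/-- **everything for the twists of a curve of the class** -/
theorem main_all (hG : StMLG) (hEnt : StLent) (hPar : StLparity) (h : Cls A B) {d : ℤ}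
    (hd : d ≠ 0) : 4 * (A * d ^ 2) ^ 3 + 27 * (B * d ^ 3) ^ 2 ≠ 0 ∧
      Modl (A * d ^ 2) (B * d ^ 3) ∧ OddHalf (A * d ^ 2) (B * d ^ 3) :=
  ⟨disc_ne h hd, modl_all h hd, oddHalf_all hG hEnt hPar h hd⟩

end Vale.Agent.P004.H26
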