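import Vale.Agent.P004.H26.Loc17
import Vale.Agent.P004.H26.Loc17a
import Vale.Agent.P004.H26.Loc17c
import Vale.Agent.P004.H26.Loc17d
import Vale.Agent.P004.H26.Par17

/-!
# P004, `X_0(17)`: every elliptic curve over `ℚ` with the `j`-invariant of a curve of conductor `17`
-/

namespace Vale.Agent.P004.H26

open P004G P004G.ML
open Vale.Agent.P004H.H641 (SameL sameL_j)

/-- the short models of the four curves of conductor `17` -/
def Four (A B : ℤ) : Prop :=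
  (A = -891 ∧ B = -648810) ∨ (A = -7371 ∧ B = -240570) ∨ (A = -117531 ∧ B = -15508746) ∨
    (A = -891 ∧ B = 4374)

theorem cls_four {A B : ℤ} (h : Four A B) : Cls A B := by
  rcases h with ⟨rfl, rfl⟩ | ⟨rfl, rfl⟩ | ⟨rfl, rfl⟩ | ⟨rfl, rfl⟩
  · exact ⟨by norm_num, fun D hD n => Ca.lt17 hD n⟩
  · exact ⟨by norm_num, fun D hD n => lt17 hD n⟩
  · exact ⟨by norm_num, fun D hD n => Cc.lt17 hD n⟩
  · exact ⟨by norm_num, fun D hD n => Cd.lt17 hD n⟩

/-- `y² = x³ + a x + b` has the `j`-invariant of one of the four curves -/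
def JF (a b : ℤ) : Prop := ∃ A B : ℤ, Four A B ∧ a ^ 3 * B ^ 2 = A ^ 3 * b ^ 2

theorem same_four {a b : ℤ} (hd : 4 * a ^ 3 + 27 * b ^ 2 ≠ 0) (h : JF a b) :
    ∃ A B : ℤ, Four A B ∧ ∃ e : ℤ, e ≠ 0 ∧ SameL a b (A * e ^ 2) (B * e ^ 3) := by
  obtain ⟨A, B, h4, hj⟩ := h
  have hA : A ≠ 0 := by
    rcases h4 with ⟨rfl, -⟩ | ⟨rfl, -⟩ | ⟨rfl, -⟩ | ⟨rfl, -⟩ <;> norm_num
  have hB : B ≠ 0 := by
    rcases h4 with ⟨-, rfl⟩ | ⟨-, rfl⟩ | ⟨-, rfl⟩ | ⟨-, rfl⟩ <;> norm_num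
  have ha : a ≠ 0 := by
    rintro rfl
    have h2 : A ^ 3 * b ^ 2 = 0 := by rw [← hj]; ring
    rcases mul_eq_zero.1 h2 with h3 | h3
    · exact pow_ne_zero 3 hA h3
    · apply hd
      rw [h3]; norm_num
  have hb : b ≠ 0 := by
    rintro rfl
    have h2 : a ^ 3 * B ^ 2 = 0 := by rw [hj]; ring
    rcases mul_eq_zero.1 h2 with h3 | h3
    · exact pow_ne_zero 3 ha h3
    · exact pow_ne_zero 2 hB h3
  exact ⟨A, B, h4, sameL_j hd ha hb hA hB hj⟩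

/-- **`Modl` and the parity for every curve with the `j`-invariant of a curve of conductor `17`** -/
theorem main_j (hG : StMLG) (hEnt : StLent) (hPar : StLparity) {a b : ℤ}
    (hd : 4 * a ^ 3 + 27 * b ^ 2 ≠ 0) (hj : JF a b) : Modl a b ∧ OddHalf a b := by
  obtain ⟨A, B, h4, e, he, hS⟩ := same_four hd hj
  obtain ⟨-, h2, h3⟩ := main_all hG hEnt hPar (cls_four h4) he
  exact ⟨hS.modl h2, hS.oddHalf h3⟩

end Vale.Agent.P004.H26
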