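import Vale.Agent.P004H.H641.Loc2
import Vale.Agent.P004H.H641.Mult
import Vale.Agent.P004H.H742.L7
import Vale.Agent.P014.H687.P4a

/-!
# P004, `X_0(17)`: the local factors at `2`, `3`, `17` of all quadratic twists of
`y² = x³ - 7371 x - 240570`
-/

open WeierstrassCurve IsDedekindDomain NumberField Polynomial

namespace Vale.Agent.P004.H26

open P004G P004G.ML P004G.ML.MG P004G.MS
open Vale.Agent.P004H.H641 hiding WK WK_c₄ WK_c₆ WK_Δ rel_Δ rel_c₄ rel_c₆ locP_eq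

section local_ring

variable {R : Type} [CommRing R] [IsDomain R] [IsDiscreteValuationRing R]
  {K : Type} [Field K] [Algebra R K] [IsFractionRing R K]

/-- the curve `y² = x³ - 7371 D² x - 240570 D³` over `K` -/
def WK (K : Type) [Field K] (D : ℤ) : WeierstrassCurve K :=
  Ew K (-7371 * D ^ 2) (-240570 * D ^ 3)

lemma WK_c₄ (D : ℤ) : (WK K D).c₄ = 353808 * (D : K) ^ 2 := by
  simp only [WK, Ew, WeierstrassCurve.c₄, WeierstrassCurve.b₂, WeierstrassCurve.b₄]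
  push_cast
  ring

lemma WK_c₆ (D : ℤ) : (WK K D).c₆ = 207852480 * (D : K) ^ 3 := by
  simp only [WK, Ew, WeierstrassCurve.c₆, WeierstrassCurve.b₂, WeierstrassCurve.b₄,
    WeierstrassCurve.b₆]
  push_cast
  ring

lemma WK_Δ (D : ℤ) : (WK K D).Δ = (2176782336 * 289) * (D : K) ^ 6 := by
  simp only [WK, Ew, WeierstrassCurve.Δ, WeierstrassCurve.b₂, WeierstrassCurve.b₄,
    WeierstrassCurve.b₆, WeierstrassCurve.b₈]
  push_cast
  ring

/-! ### additive reduction -/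

section add

variable {D : ℤ} {C : VariableChange K} {W₁ : WeierstrassCurve R}

omit [IsDomain R] [IsDiscreteValuationRing R] in
lemma rel_Δ (e : C • WK K D = W₁.map (algebraMap R K)) {a b : R}
    (hu : (C.u : K) * algebraMap R K b = algebraMap R K a) :
    (2176782336 * 289) * (D : R) ^ 6 * b ^ 12 = W₁.Δ * a ^ 12 := by
  have h1 := congrArg WeierstrassCurve.Δ e
  rw [variableChange_Δ, WK_Δ, WeierstrassCurve.map_Δ] at h1
  apply IsFractionRing.injective R K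
  simp only [map_mul, map_pow, map_ofNat, map_intCast]
  rw [← h1, ← hu]
  have h2 : ((C.u⁻¹ : Kˣ) : K) * (C.u : K) = 1 := C.u.inv_mul
  calc (2176782336 * 289) * (D : K) ^ 6 * algebraMap R K b ^ 12
      = (((C.u⁻¹ : Kˣ) : K) * (C.u : K)) ^ 12 * ((2176782336 * 289) * (D : K) ^ 6) *
          algebraMap R K b ^ 12 := by
        rw [h2]; ring
    _ = _ := by ring

omit [IsDomain R] [IsDiscreteValuationRing R] in
lemma rel_c₄ (e : C • WK K D = W₁.map (algebraMap R K)) {a b : R}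
    (hu : (C.u : K) * algebraMap R K b = algebraMap R K a) :
    353808 * (D : R) ^ 2 * b ^ 4 = W₁.c₄ * a ^ 4 := by
  have h1 := congrArg WeierstrassCurve.c₄ e
  rw [variableChange_c₄, WK_c₄, WeierstrassCurve.map_c₄] at h1
  apply IsFractionRing.injective R K
  simp only [map_mul, map_pow, map_ofNat, map_intCast]
  rw [← h1, ← hu]
  have h2 : ((C.u⁻¹ : Kˣ) : K) * (C.u : K) = 1 := C.u.inv_mul
  calc 353808 * (D : K) ^ 2 * algebraMap R K b ^ 4
      = (((C.u⁻¹ : Kˣ) : K) * (C.u : K)) ^ 4 * (353808 * (D : K) ^ 2) *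
          algebraMap R K b ^ 4 := by
        rw [h2]; ring
    _ = _ := by ring

omit [IsDomain R] [IsDiscreteValuationRing R] in
lemma rel_c₆ (e : C • WK K D = W₁.map (algebraMap R K)) {a b : R}
    (hu : (C.u : K) * algebraMap R K b = algebraMap R K a) :
    207852480 * (D : R) ^ 3 * b ^ 6 = W₁.c₆ * a ^ 6 := by
  have h1 := congrArg WeierstrassCurve.c₆ e
  rw [variableChange_c₆, WK_c₆, WeierstrassCurve.map_c₆] at h1
  apply IsFractionRing.injective R K
  simp only [map_mul, map_pow, map_ofNat, map_intCast]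
  rw [← h1, ← hu]
  have h2 : ((C.u⁻¹ : Kˣ) : K) * (C.u : K) = 1 := C.u.inv_mul
  calc 207852480 * (D : K) ^ 3 * algebraMap R K b ^ 6
      = (((C.u⁻¹ : Kˣ) : K) * (C.u : K)) ^ 6 * (207852480 * (D : K) ^ 3) *
          algebraMap R K b ^ 6 := by
        rw [h2]; ring
    _ = _ := by ring

/-- no model has unit discriminant (`D = 2^s d`, `s = 2` and `d = 3 mod 4`, or `s = 3`) -/
lemma not_unit_Δ2 (h : Loc 2 R) {s : ℕ} {d : ℤ} (hD : D = 2 ^ s * d) (hd : ¬ 2 ∣ d)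
    (hs : s = 3 ∨ (s = 2 ∧ d % 4 = 3)) (e : C • WK K D = W₁.map (algebraMap R K)) :
    ¬ IsUnit W₁.Δ := by
  intro hΔ
  obtain ⟨a, b, ha, hb, hu⟩ := exists_frac (R := R) C
  have r1 := rel_Δ e hu
  have r4 := rel_c₄ e hu
  have r6 := rel_c₆ e hu
  obtain ⟨i, u, rfl⟩ := fac h ha
  obtain ⟨j, v, rfl⟩ := fac h hb
  have hdu : IsUnit (d : R) := int_unit h (by exact_mod_cast hd)
  have hDR : (D : R) = 2 ^ s * (d : R) := by
    have := congrArg (fun z : ℤ => (z : R)) hD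
    push_cast at this
    exact this
  have h2i : Irreducible (2 : R) := by exact_mod_cast h.unif
  have h2p : Prime (2 : R) := h2i.prime
  have h20 : (2 : R) ≠ 0 := h2p.ne_zero
  have hmm : ∀ {x : R}, ¬ IsUnit x ↔ (2 : R) ∣ x := fun {x} => by
    have := mem_max h (x := x)
    exact_mod_cast this
  rw [hDR] at r1 r4 r6
  push_cast at r1 r4 r6
  have k1 : IsUnit (((531441 * 289 : ℤ)) : R) := int_unit h (by norm_num)
  have q1 : (((531441 * 289 : ℤ) : R) * (d : R) ^ 6 * (v : R) ^ 12) *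
      ((2 : ℕ) : R) ^ (12 + 6 * s + 12 * j) = (W₁.Δ * (u : R) ^ 12) * ((2 : ℕ) : R) ^ (12 * i) := by
    push_cast
    calc _ = (2176782336 * 289) * (2 ^ s * (d : R)) ^ 6 * ((v : R) * 2 ^ j) ^ 12 := by ring
      _ = _ := r1
      _ = _ := by ring
  have q2 := (fac_unique h ((k1.mul (hdu.pow 6)).mul (v.isUnit.pow 12))
    (hΔ.mul (u.isUnit.pow 12)) q1).1
  obtain ⟨rfl, hd3⟩ : s = 2 ∧ d % 4 = 3 := by omega
  obtain rfl : i = j + 2 := by omega
  have h2j : ∀ n : ℕ, (2 : R) ^ n ≠ 0 := fun n => pow_ne_zero _ h20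
  -- `c₄`
  have q4 : W₁.c₄ * (u : R) ^ 4 = ((22113 : ℤ) : R) * (d : R) ^ 2 * (v : R) ^ 4 := by
    apply mul_left_cancel₀ (h2j (4 * j + 8))
    push_cast
    calc _ = W₁.c₄ * ((u : R) * 2 ^ (j + 2)) ^ 4 := by ring
      _ = _ := r4.symm
      _ = _ := by ring
  have q6 : W₁.c₆ * (u : R) ^ 6 = 3247695 * (d : R) ^ 3 * (v : R) ^ 6 := by
    apply mul_left_cancel₀ (h2j (6 * j + 12))
    calc _ = W₁.c₆ * ((u : R) * 2 ^ (j + 2)) ^ 6 := by ring
      _ = _ := r6.symm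
      _ = _ := by ring
  have hc4 : IsUnit W₁.c₄ := by
    have h3 : IsUnit (((22113 : ℤ) : R) * (d : R) ^ 2 * (v : R) ^ 4) :=
      ((int_unit h (by norm_num)).mul (hdu.pow 2)).mul (v.isUnit.pow 4)
    rw [← q4] at h3
    exact isUnit_of_mul_isUnit_left h3
  -- `a₁` is a unit
  have ha₁ : IsUnit W₁.a₁ := by
    by_contra h3
    rw [hmm] at h3
    obtain ⟨α, hα⟩ := h3
    apply (hmm (x := W₁.c₄)).2 _ hc4
    refine ⟨2 ^ 3 * α ^ 4 + 4 * W₁.a₁ ^ 2 * W₁.a₂ + 8 * W₁.a₂ ^ 2 -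
        12 * (2 * W₁.a₄ + W₁.a₁ * W₁.a₃), ?_⟩
    rw [WeierstrassCurve.c₄, WeierstrassCurve.b₂, WeierstrassCurve.b₄, hα]
    ring
  obtain ⟨t, ht⟩ := unit_sq h ha₁
  have hsix : ∀ {x : R}, IsUnit x → (4 : R) ∣ x ^ 6 - 1 := by
    intro x hx
    obtain ⟨t, ht⟩ := unit_sq h hx
    refine ⟨t * (x ^ 4 + x ^ 2 + 1), ?_⟩
    linear_combination (x ^ 4 + x ^ 2 + 1) * ht
  obtain ⟨t₁, ht₁⟩ := hsix v.isUnit
  obtain ⟨t₂, ht₂⟩ := hsix u.isUnit
  have hb₂ : W₁.b₂ = 1 + 4 * (t + W₁.a₂) := by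
    rw [WeierstrassCurve.b₂]
    linear_combination ht
  set β : R := t + W₁.a₂ with hβ
  have hc₆ : ∃ N : R, W₁.c₆ = -1 + 4 * N := by
    refine ⟨-(3 * β + 12 * β ^ 2 + 16 * β ^ 3) + 9 * W₁.b₂ * W₁.b₄ - 54 * W₁.b₆, ?_⟩
    rw [WeierstrassCurve.c₆, hb₂]
    ring
  obtain ⟨N, hN⟩ := hc₆
  have h9 : ((2 : ℕ) : R) ^ 2 ∣ ((1 + 3247695 * d ^ 3 : ℤ) : R) := by
    refine ⟨N + W₁.c₆ * t₂ - 3247695 * (d : R) ^ 3 * t₁, ?_⟩
    push_cast
    linear_combination -q6 + hN + W₁.c₆ * ht₂ - 3247695 * (d : R) ^ 3 * ht₁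
  have h10 := int_pow_dvd h 2 h9
  have h11 : d ^ 3 % 4 = 3 := by
    rw [pow_succ, pow_two, Int.mul_emod, Int.mul_emod d d, hd3]
    norm_num
  push_cast at h10
  omega

/-- no model has unit `c₄` -/
lemma not_unit_c₄2 (h : Loc 2 R) {s : ℕ} {d : ℤ} (hD : D = 2 ^ s * d) (hd : ¬ 2 ∣ d)
    (hs : s = 3 ∨ (s = 2 ∧ d % 4 = 3)) (e : C • WK K D = W₁.map (algebraMap R K)) :
    ¬ IsUnit W₁.c₄ := by
  intro hc
  have hnΔ := not_unit_Δ2 h hD hd hs e
  obtain ⟨a, b, ha, hb, hu⟩ := exists_frac (R := R) C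
  have r1 := rel_Δ e hu
  have r4 := rel_c₄ e hu
  obtain ⟨i, u, rfl⟩ := fac h ha
  obtain ⟨j, v, rfl⟩ := fac h hb
  have hdu : IsUnit (d : R) := int_unit h (by exact_mod_cast hd)
  have hDR : (D : R) = 2 ^ s * (d : R) := by
    have := congrArg (fun z : ℤ => (z : R)) hD
    push_cast at this
    exact this
  have h2i : Irreducible (2 : R) := by exact_mod_cast h.unif
  have h20 : (2 : R) ≠ 0 := h2i.prime.ne_zero
  rw [hDR] at r1 r4
  push_cast at r1 r4
  have k1 : IsUnit ((22113 : ℤ) : R) := int_unit h (by norm_num)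
  have q1 : (((22113 : ℤ) : R) * (d : R) ^ 2 * (v : R) ^ 4) *
      ((2 : ℕ) : R) ^ (4 + 2 * s + 4 * j) = (W₁.c₄ * (u : R) ^ 4) * ((2 : ℕ) : R) ^ (4 * i) := by
    push_cast
    calc _ = 353808 * (2 ^ s * (d : R)) ^ 2 * ((v : R) * 2 ^ j) ^ 4 := by ring
      _ = _ := r4
      _ = _ := by ring
  have q2 := (fac_unique h ((k1.mul (hdu.pow 2)).mul (v.isUnit.pow 4))
    (hc.mul (u.isUnit.pow 4)) q1).1
  obtain rfl : s = 2 := by omega
  obtain rfl : i = j + 2 := by omega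
  have k2 : IsUnit ((531441 * 289 : ℤ) : R) := int_unit h (by norm_num)
  have q3 : W₁.Δ * (u : R) ^ 12 = (((531441 * 289 : ℤ) : R) * (d : R) ^ 6 * (v : R) ^ 12) := by
    apply mul_left_cancel₀ (pow_ne_zero (24 + 12 * j) h20)
    push_cast
    calc _ = W₁.Δ * ((u : R) * 2 ^ (j + 2)) ^ 12 := by ring
      _ = _ := r1.symm
      _ = _ := by ring
  have q4 : IsUnit ((((531441 * 289 : ℤ) : R) * (d : R) ^ 6 * (v : R) ^ 12)) :=
    (k2.mul (hdu.pow 6)).mul (v.isUnit.pow 12)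
  rw [← q3] at q4
  exact hnΔ (isUnit_of_mul_isUnit_left q4)

end add

/-! ### additive reduction at an odd prime -/

lemma add_odd {p : ℕ} (h : Loc p R) {D d e f : ℤ} {s t : ℕ} (hD : D = p * d)
    (hd : ¬ (p : ℤ) ∣ d) (hs : (2176782336 * 289 : ℤ) = (p : ℤ) ^ s * e) (he : ¬ (p : ℤ) ∣ e)
    (ht : (353808 : ℤ) = (p : ℤ) ^ t * f) (hf : ¬ (p : ℤ) ∣ f) (h12 : ¬ 12 ∣ s + 6)
    (h4 : ¬ 4 ∣ t + 2) {C : VariableChange K} {W₁ : WeierstrassCurve R}
    (hC : C • WK K D = W₁.map (algebraMap R K)) : ¬ IsUnit W₁.Δ ∧ ¬ IsUnit W₁.c₄ := by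
  obtain ⟨a, b, ha, hb, hu⟩ := exists_frac (R := R) C
  have r1 := rel_Δ hC hu
  have r4 := rel_c₄ hC hu
  obtain ⟨i, u, rfl⟩ := fac h ha
  obtain ⟨j, v, rfl⟩ := fac h hb
  have hdu : IsUnit (d : R) := int_unit h hd
  have heu : IsUnit (e : R) := int_unit h he
  have hfu : IsUnit (f : R) := int_unit h hf
  have hDR : (D : R) = (p : R) * (d : R) := by
    have := congrArg (fun z : ℤ => (z : R)) hD
    push_cast at this
    exact this
  have hsR : ((2176782336 * 289) : R) = (p : R) ^ s * (e : R) := by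
    have h1 := congrArg (fun z : ℤ => (z : R)) hs
    push_cast at h1
    rw [← h1]
    norm_num
  have htR : (353808 : R) = (p : R) ^ t * (f : R) := by
    have := congrArg (fun z : ℤ => (z : R)) ht
    push_cast at this
    exact this
  rw [hDR, hsR] at r1
  rw [hDR, htR] at r4
  constructor
  · intro hΔ
    have q1 : ((e : R) * (d : R) ^ 6 * (v : R) ^ 12) * (p : R) ^ (s + 6 + 12 * j) =
        (W₁.Δ * (u : R) ^ 12) * (p : R) ^ (12 * i) := by
      calc _ = (p : R) ^ s * (e : R) * ((p : R) * (d : R)) ^ 6 * ((v : R) * (p : R) ^ j) ^ 12 := by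
            ring
        _ = _ := r1
        _ = _ := by ring
    have q2 := (fac_unique h ((heu.mul (hdu.pow 6)).mul (v.isUnit.pow 12))
      (hΔ.mul (u.isUnit.pow 12)) q1).1
    exact h12 (by omega)
  · intro hc
    have q1 : ((f : R) * (d : R) ^ 2 * (v : R) ^ 4) * (p : R) ^ (t + 2 + 4 * j) =
        (W₁.c₄ * (u : R) ^ 4) * (p : R) ^ (4 * i) := by
      calc _ = (p : R) ^ t * (f : R) * ((p : R) * (d : R)) ^ 2 * ((v : R) * (p : R) ^ j) ^ 4 := by
            ring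
        _ = _ := r4
        _ = _ := by ring
    have q2 := (fac_unique h ((hfu.mul (hdu.pow 2)).mul (v.isUnit.pow 4))
      (hc.mul (u.isUnit.pow 4)) q1).1
    exact h4 (by omega)

/-! ### good reduction at `3` -/

/-- the good model at `3` -/
lemma model_good3 {p : ℕ} (h : Loc p R) (D : ℤ) :
    ∃ C : VariableChange K, C • WK K D =
      (⟨0, ((-3 * D : ℤ) : R), 0, ((-88 * D ^ 2 : ℤ) : R), ((-240 * D ^ 3 : ℤ) : R)⟩ :
        WeierstrassCurve R).map (algebraMap R K) := by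
  have h3 : (3 : K) ≠ 0 := by
    have := int_ne (K := K) h (n := 3) (by norm_num)
    rw [map_intCast] at this
    exact_mod_cast this
  refine ⟨⟨Units.mk0 (3 : K) h3, -9 * (D : K), 0, 0⟩, ?_⟩
  ext
  · simp [variableChange_a₁, WK, Ew]
  · simp only [variableChange_a₂, WK, Ew, WeierstrassCurve.map_a₂, Units.val_inv_eq_inv_val,
      Units.val_mk0, map_intCast]
    push_cast
    field_simp
    ring
  · simp only [variableChange_a₃, WK, Ew, WeierstrassCurve.map_a₃, Units.val_inv_eq_inv_val,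
      Units.val_mk0, map_zero]
    field_simp
    ring
  · simp only [variableChange_a₄, WK, Ew, WeierstrassCurve.map_a₄, Units.val_inv_eq_inv_val,
      Units.val_mk0, map_intCast]
    push_cast
    field_simp
    ring
  · simp only [variableChange_a₆, WK, Ew, WeierstrassCurve.map_a₆, Units.val_inv_eq_inv_val,
      Units.val_mk0, map_intCast]
    push_cast
    field_simp
    ring

omit [IsDomain R] [IsDiscreteValuationRing R] in
lemma Δ_good3 (D : ℤ) :
    (⟨0, ((-3 * D : ℤ) : R), 0, ((-88 * D ^ 2 : ℤ) : R), ((-240 * D ^ 3 : ℤ) : R)⟩ :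
      WeierstrassCurve R).Δ = (((4096 * 289) * D ^ 6 : ℤ) : R) := by
  simp only [WeierstrassCurve.Δ, WeierstrassCurve.b₂, WeierstrassCurve.b₄, WeierstrassCurve.b₆,
    WeierstrassCurve.b₈]
  push_cast
  ring

/-- the number of points of the reduction at `3` -/
lemma count_good3 (h : Loc 3 R) (D : ℤ) (hD : ¬ (3 : ℤ) ∣ D) :
    (affCard ((⟨0, ((-3 * D : ℤ) : R), 0, ((-88 * D ^ 2 : ℤ) : R), ((-240 * D ^ 3 : ℤ) : R)⟩ :
      WeierstrassCurve R).map (IsLocalRing.residue R)) : ℤ) = 3 := by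
  obtain ⟨f⟩ := res_equiv h
  have h1 : (⟨0, ((-3 * D : ℤ) : R), 0, ((-88 * D ^ 2 : ℤ) : R), ((-240 * D ^ 3 : ℤ) : R)⟩ :
      WeierstrassCurve R).map (IsLocalRing.residue R) =
      (⟨0, ((-3 * D : ℤ) : ZMod 3), 0, ((-88 * D ^ 2 : ℤ) : ZMod 3),
        ((-240 * D ^ 3 : ℤ) : ZMod 3)⟩ : WeierstrassCurve (ZMod 3)).map
        (f : ZMod 3 →+* IsLocalRing.ResidueField R) := by
    ext
    · simp
    · simp only [WeierstrassCurve.map_a₂, map_intCast]
    · simp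
    · simp only [WeierstrassCurve.map_a₄, map_intCast]
    · simp only [WeierstrassCurve.map_a₆, map_intCast]
  rw [h1, affCard_equiv]
  unfold affCard
  have h2 : ∀ c : ZMod 3, c ≠ 0 → Nat.card {q : ZMod 3 × ZMod 3 // q.2 ^ 2 + 0 * q.1 * q.2 +
      0 * q.2 = q.1 ^ 3 + (-3 * c) * q.1 ^ 2 + (-88 * c ^ 2) * q.1 + (-240 * c ^ 3)} = 3 := by
    intro c
    rw [Nat.card_eq_fintype_card]
    revert c
    decide
  have hDc : (D : ZMod 3) ≠ 0 := by
    intro h0
    rw [ZMod.intCast_zmod_eq_zero_iff_dvd] at h0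
    exact hD (by exact_mod_cast h0)
  have h3 := h2 (D : ZMod 3) hDc
  push_cast
  rw [h3]
  rfl

end local_ring

/-- the coefficients of Mathlib's `L`-function of the twist by `D` -/
noncomputable def LT (D : ℤ) (n : ℕ) : ℤ := LA (-7371 * D ^ 2) (-240570 * D ^ 3) n

lemma locP_eq (D : ℤ) (p : ℕ) (hp : p.Prime) :
    locP (-7371 * D ^ 2) (-240570 * D ^ 3) p hp =
      (WK ((pl p hp).adicCompletion ℚ) D).localPolynomial
        ((pl p hp).adicCompletionIntegers ℚ) := by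
  unfold locP
  rw [Ec_map]
  rfl

/-- **`D` even: additive reduction at `2`** -/
theorem loc2_add {D : ℤ} (hF : Fund1 D) (hD : 2 ∣ D) : TrivAt (LT D) 2 := by
  have hp : Nat.Prime 2 := Nat.prime_two
  have hL := M2.pfLoc 2 hp
  obtain ⟨-, -, -, e3⟩ := M2.pfEul (-7371 * D ^ 2) (-240570 * D ^ 3)
  obtain ⟨f1, -, -, -⟩ := e3 2 hp
  -- `D = 2^s d`
  obtain ⟨s, d, hs, hDd, hd⟩ : ∃ (s : ℕ) (d : ℤ), (s = 3 ∨ (s = 2 ∧ d % 4 = 3)) ∧
      D = 2 ^ s * d ∧ ¬ 2 ∣ d := by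
    rcases hF with rfl | ⟨-, ⟨h1, -⟩ | ⟨m, rfl, h1, h2⟩⟩
    · norm_num at hD
    · omega
    · rcases h1 with h1 | h1
      · obtain ⟨m', rfl⟩ : ∃ m' : ℤ, m = 2 * m' := ⟨m / 2, by omega⟩
        exact ⟨3, m', Or.inl rfl, by ring, by omega⟩
      · exact ⟨2, m, Or.inr ⟨rfl, h1⟩, by ring, by omega⟩
  apply f1
  rw [locP_eq]
  refine M1.pfLocAdd 2 _ _ hL _ fun C W₁ e => ⟨not_unit_Δ2 hL hDd hd hs e,
    not_unit_c₄2 hL hDd hd hs e⟩

/-- **`3 ∤ D`: good reduction at `3`**, with `a_3 = 0`. -/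
theorem loc3_good {D : ℤ} (hD : ¬ (3 : ℤ) ∣ D) : GoodAt (LT D) 3 ∧ LT D 3 = 0 := by
  have hp : Nat.Prime 3 := Nat.prime_three
  have hL := M2.pfLoc 3 hp
  obtain ⟨-, -, -, e3⟩ := M2.pfEul (-7371 * D ^ 2) (-240570 * D ^ 3)
  obtain ⟨-, -, -, f4⟩ := e3 3 hp
  obtain ⟨C, hC⟩ := model_good3 (K := (pl 3 hp).adicCompletion ℚ) hL D
  have hu : IsUnit (⟨0, ((-3 * D : ℤ) : (pl 3 hp).adicCompletionIntegers ℚ), 0,
      ((-88 * D ^ 2 : ℤ) : (pl 3 hp).adicCompletionIntegers ℚ),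
      ((-240 * D ^ 3 : ℤ) : (pl 3 hp).adicCompletionIntegers ℚ)⟩ :
        WeierstrassCurve ((pl 3 hp).adicCompletionIntegers ℚ)).Δ := by
    rw [Δ_good3 D]
    apply int_unit hL
    intro h1
    have hpp : Prime ((3 : ℕ) : ℤ) := Nat.prime_iff_prime_int.1 hp
    rcases hpp.dvd_or_dvd h1 with h2 | h2
    · norm_num at h2
    · have h3 := hpp.dvd_of_dvd_pow h2
      exact hD (by exact_mod_cast h3)
  have hpol := M1.pfLocGood 3 _ _ hL _ C _ hC hu
  rw [← locP_eq, count_good3 hL D hD] at hpol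
  obtain ⟨t1, t2⟩ := f4 _ hpol
  refine ⟨t2, ?_⟩
  have t1' : LT D 3 = (3 : ℕ) - 3 := t1
  rw [t1']
  norm_num

/-- **`3 ∣ D`: additive reduction at `3`** -/
theorem loc3_add {D : ℤ} (hF : Fund1 D) (hD : (3 : ℤ) ∣ D) : TrivAt (LT D) 3 := by
  have hp : Nat.Prime 3 := Nat.prime_three
  have hL := M2.pfLoc 3 hp
  obtain ⟨-, -, -, e3⟩ := M2.pfEul (-7371 * D ^ 2) (-240570 * D ^ 3)
  obtain ⟨f1, -, -, -⟩ := e3 3 hp
  have h9 := fund_not_sq hF hp (by norm_num)
  obtain ⟨d, hd⟩ := hD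
  have hd3 : ¬ ((3 : ℕ) : ℤ) ∣ d := by
    rintro ⟨c, rfl⟩
    apply h9
    rw [hd]
    exact ⟨c, by push_cast; ring⟩
  apply f1
  rw [locP_eq]
  refine M1.pfLocAdd 3 _ _ hL _ fun C W₁ e => ?_
  exact add_odd hL (e := (4096 * 289)) (f := 1456) (s := 12) (t := 5)
    (by exact_mod_cast hd) hd3 (by norm_num) (by norm_num) (by norm_num) (by norm_num)
    (by norm_num) (by norm_num) e

/-- **`17 ∣ D`: additive reduction at `17`** -/
theorem loc17_add {D : ℤ} (hF : Fund1 D) (hD : (17 : ℤ) ∣ D) : TrivAt (LT D) 17 := by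
  have hp : Nat.Prime 17 := by norm_num
  have hL := M2.pfLoc 17 hp
  obtain ⟨-, -, -, e3⟩ := M2.pfEul (-7371 * D ^ 2) (-240570 * D ^ 3)
  obtain ⟨f1, -, -, -⟩ := e3 17 hp
  have h9 := fund_not_sq hF hp (by norm_num)
  obtain ⟨d, hd⟩ := hD
  have hd3 : ¬ ((17 : ℕ) : ℤ) ∣ d := by
    rintro ⟨c, rfl⟩
    apply h9
    rw [hd]
    exact ⟨c, by push_cast; ring⟩
  apply f1
  rw [locP_eq]
  refine M1.pfLocAdd 17 _ _ hL _ fun C W₁ e => ?_
  exact add_odd hL (e := 2176782336) (f := 353808) (s := 2) (t := 0)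
    (by exact_mod_cast hd) hd3 (by norm_num) (by norm_num) (by norm_num) (by norm_num)
    (by norm_num) (by norm_num) e

lemma node_eq {F : Type} [Field F] (D : ℤ) (T : F) :
    (Ew F (-7371 * D ^ 2) (-240570 * D ^ 3)).c₄ * T ^ 2 +
      (Ew F (-7371 * D ^ 2) (-240570 * D ^ 3)).a₁ *
        (Ew F (-7371 * D ^ 2) (-240570 * D ^ 3)).c₄ * T -
      (54 * (Ew F (-7371 * D ^ 2) (-240570 * D ^ 3)).b₆ -
        3 * (Ew F (-7371 * D ^ 2) (-240570 * D ^ 3)).b₂ *
          (Ew F (-7371 * D ^ 2) (-240570 * D ^ 3)).b₄ +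
        (Ew F (-7371 * D ^ 2) (-240570 * D ^ 3)).a₂ *
          (Ew F (-7371 * D ^ 2) (-240570 * D ^ 3)).c₄) =
      353808 * (D : F) ^ 2 * T ^ 2 + 51963120 * (D : F) ^ 3 := by
  simp only [Ew, WeierstrassCurve.c₄, WeierstrassCurve.b₂, WeierstrassCurve.b₄,
    WeierstrassCurve.b₆]
  push_cast
  ring

lemma zmodN : ∀ d T : ZMod 17, d ≠ 0 →
    (353808 * d ^ 2 * T ^ 2 + 51963120 * d ^ 3 = 0 ↔ T ^ 2 = 8 * d) := by
  decide

lemma sqN : ∀ d : ZMod 17, (∃ T, T ^ 2 = 8 * d) ↔ IsSquare d := by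
  have h : ∀ d : ZMod 17, (∃ T, T ^ 2 = 8 * d) ↔ ∃ c, d = c * c := by decide
  exact h

lemma split17 {F : Type} [Field F] (f : ZMod 17 ≃+* F) (D : ℤ) (hD : (D : ZMod 17) ≠ 0) :
    SplitNode (Ew F (-7371 * D ^ 2) (-240570 * D ^ 3)) ↔ IsSquare (D : ZMod 17) := by
  rw [← sqN]
  unfold SplitNode
  constructor
  · rintro ⟨T, hT⟩
    rw [node_eq] at hT
    refine ⟨f.symm T, (zmodN _ _ hD).1 ?_⟩
    have := congrArg f.symm hT
    simp only [map_add, map_mul, map_pow, map_ofNat, map_intCast, map_zero] at this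
    exact this
  · rintro ⟨T, hT⟩
    refine ⟨f T, ?_⟩
    rw [node_eq]
    have := congrArg f ((zmodN _ _ hD).2 hT)
    simp only [map_add, map_mul, map_pow, map_ofNat, map_intCast, map_zero] at this
    exact this

/-- **`17 ∤ D`: multiplicative reduction at `17`** -/
theorem loc17_mult {D : ℤ} (hD : ¬ (17 : ℤ) ∣ D) (k : ℕ) : LT D (17 ^ k) = jacobiSym D 17 ^ k := by
  have hp : Nat.Prime 17 := by norm_num
  have hpp : Prime ((17 : ℕ) : ℤ) := Nat.prime_iff_prime_int.1 hp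
  have hL := M2.pfLoc 17 hp
  obtain ⟨-, -, -, e3⟩ := M2.pfEul (-7371 * D ^ 2) (-240570 * D ^ 3)
  obtain ⟨-, f2, f3, -⟩ := e3 17 hp
  set R := (pl 17 hp).adicCompletionIntegers ℚ with hR
  set K := (pl 17 hp).adicCompletion ℚ with hK
  have hD' : ¬ ((17 : ℕ) : ℤ) ∣ D := by exact_mod_cast hD
  set W₁ : WeierstrassCurve R := Ew R (-7371 * D ^ 2) (-240570 * D ^ 3) with hW₁
  have hmap : (1 : VariableChange K) • WK K D = W₁.map (algebraMap R K) := by
    rw [one_smul, hW₁, map_Ew]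
    rfl
  have hc : IsUnit W₁.c₄ := by
    rw [hW₁, Ew_c₄]
    apply int_unit hL
    intro h1
    have h2 : (-48 * (-7371 * D ^ 2) : ℤ) = 353808 * D ^ 2 := by ring
    rw [h2] at h1
    rcases hpp.dvd_or_dvd h1 with h3 | h3
    · norm_num at h3
    · exact hD' (hpp.dvd_of_dvd_pow h3)
  have hcz := hL.charZero
  have hΔe : W₁.Δ = (((2176782336 * 289) * D ^ 6 : ℤ) : R) := by
    rw [hW₁, Ew_Δ]
    congr 1
    ring
  have hD0 : D ≠ 0 := by
    rintro rfl
    exact hD (dvd_zero _)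
  have hΔ : W₁.Δ ≠ 0 := by
    rw [hΔe]
    have : ((2176782336 * 289) * D ^ 6 : ℤ) ≠ 0 := mul_ne_zero (by norm_num) (pow_ne_zero _ hD0)
    exact_mod_cast this
  have hΔ' : ¬ IsUnit W₁.Δ := by
    rw [hΔe, mem_max hL]
    have : (((2176782336 * 289) * D ^ 6 : ℤ) : R) =
        ((17 : ℕ) : R) * (((2176782336 * 17) * D ^ 6 : ℤ) : R) := by
      push_cast
      ring
    rw [this]
    exact dvd_mul_right _ _
  have hloc := locMult (WK K D) 1 W₁ hmap hc hΔ hΔ'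
  rw [← locP_eq] at hloc
  -- the tangent directions
  have hFact : Fact (Nat.Prime 17) := ⟨hp⟩
  obtain ⟨f⟩ := res_equiv hL
  have hsplit : SplitNode (W₁.map (IsLocalRing.residue R)) ↔ IsSquare (D : ZMod 17) := by
    rw [hW₁, map_Ew]
    exact split17 f D (by
      intro h0
      rw [ZMod.intCast_zmod_eq_zero_iff_dvd] at h0
      exact hD' h0)
  have hjac : IsSquare (D : ZMod 17) ↔ jacobiSym D 17 = 1 := by
    rw [← jacobiSym.legendreSym.to_jacobiSym]
    exact (legendreSym.eq_one_iff 17 (by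
      intro h0
      rw [ZMod.intCast_zmod_eq_zero_iff_dvd] at h0
      exact hD' h0)).symm
  by_cases hs : IsSquare (D : ZMod 17)
  · rw [if_pos (hsplit.2 hs)] at hloc
    have := f2 hloc k
    rw [hjac.1 hs, one_pow]
    exact this
  · rw [if_neg (fun h1 => hs (hsplit.1 h1))] at hloc
    have := f3 hloc k
    have h1 : jacobiSym D 17 = -1 := by
      have h2 := Vale.Agent.P004H.H742.jac_sq hp hD'
      have h3 : jacobiSym D 17 ≠ 1 := fun h3 => hs (hjac.2 h3)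
      rcases sq_eq_one_iff.1 h2 with h4 | h4
      · exact absurd h4 h3
      · exact h4
    rw [h1]
    exact this

/-! ### the assembly -/

open Vale.Agent.P004H.H742 (kron k2 kron_one kron_mul kron_odd kron_odd_pow kron_two_pow jac_zero
  jac_sq good_sign fund_cases allMLG)
open Vale.Agent.P014.H687 Vale.Agent.P014.H687.Isog Vale.Agent.P014.H687.P4
open Vale.Agent.P014.H70 (r3)

/-- odd discriminants: the general model -/
theorem LT_odd (k : ℤ) (h : 4 * k + 1 ≠ 0) (m : ℕ) :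
    LT (4 * k + 1) m = (Vale.Agent.P014.tw k).LFunction m := by
  have h4 : Is4 (-6) (-4) := Or.inr (Or.inl ⟨rfl, rfl⟩)
  obtain ⟨-, ⟨h2, h2'⟩, -, -⟩ := AB_vals
  unfold LT LA
  have e := vc_smul (-6) (-4) k
  rw [h2, h2'] at e
  rw [← e, LFunction_smul _ ?_, tw_eq, TW_GW]
  rw [GW_Δ]
  have h1 : dis (-6) (-4) * (4 * k + 1) ^ 6 ≠ 0 := mul_ne_zero (dis_17 h4).2 (pow_ne_zero _ h)
  exact_mod_cast h1

/-- the base curve -/
theorem LA_base (m : ℕ) : LA (-7371) (-240570) m = an r3 m := by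
  have h1 := LT_odd 0 (by norm_num) m
  have h2 := LFunction_tw 0 (by
    have : (4 * 0 + 1 : ℤ) = 1 := by norm_num
    rw [this]; exact squarefree_one) (by norm_num) m
  rw [h2] at h1
  unfold LT at h1
  norm_num at h1
  exact h1

lemma an_good {p : ℕ} (hp : p.Prime) (h17 : p ≠ 17) : GoodAt (an r3) p := by
  intro j
  refine (hk T3).pow_T hp ?_ j
  intro h1
  exact h17 ((Nat.prime_dvd_prime_iff_eq hp (by norm_num)).1 h1)

lemma an_el (k : ℕ) : an r3 (17 ^ k) = 1 := by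
  induction k with
  | zero => rw [pow_zero]; exact (hk T3).one
  | succ j ih => rw [(hk T3).pow_U (by norm_num) (by norm_num), ih, an_17 T3, mul_one]

lemma LT_one (D : ℤ) : LT D 1 = 1 := (M2.pfEul (-7371 * D ^ 2) (-240570 * D ^ 3)).2.1

lemma bdE_eq : bdE (-7371) (-240570) = 2 * 3 * 17 * (2 ^ 8 * 3 ^ 11 * 17) := by
  norm_num [bdE]

lemma not_dvd_bdE {p : ℕ} (hp : p.Prime) (hp5 : 5 ≤ p) (h17 : p ≠ 17) :
    ¬ p ∣ bdE (-7371) (-240570) := by
  rw [bdE_eq]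
  intro h
  have h2 : ¬ p ∣ 2 := fun h => by have := Nat.le_of_dvd (by norm_num) h; omega
  have h3 : ¬ p ∣ 3 := fun h => by have := Nat.le_of_dvd (by norm_num) h; omega
  have h4 : ¬ p ∣ 17 := fun h => h17 ((Nat.prime_dvd_prime_iff_eq hp (by norm_num)).1 h)
  simp only [hp.dvd_mul] at h
  rcases h with ((h | h) | h) | ((h | h) | h)
  · exact h2 h
  · exact h3 h
  · exact h4 h
  · exact h2 (hp.dvd_of_dvd_pow h)
  · exact h3 (hp.dvd_of_dvd_pow h)
  · exact h4 h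

theorem st_big {p : ℕ} (hp : p.Prime) (hp5 : 5 ≤ p) (h17 : p ≠ 17) {D : ℤ} (hD : Fund1 D)
    (k : ℕ) : LT D (p ^ k) = an r3 (p ^ k) * kron D (p ^ k) := by
  obtain ⟨-, hg, hc⟩ := allMLG (-7371) (-240570) (by norm_num) D hD
  have hb := not_dvd_bdE hp hp5 h17
  have hcop : (p ^ k).Coprime (bdE (-7371) (-240570)) :=
    Nat.Coprime.pow_left _ ((Nat.Prime.coprime_iff_not_dvd hp).2 hb)
  have h1 := hc _ hcop
  unfold LT
  rw [h1]
  have hodd : p % 2 = 1 := by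
    rcases hp.eq_two_or_odd with h | h
    · omega
    · exact h
  have hodd' : (p ^ k) % 2 = 1 := by
    rw [Nat.pow_mod, hodd]
    simp
  rw [kron_odd D hodd', LA_base]

theorem st_two {D : ℤ} (hD : Fund1 D) (k : ℕ) :
    LT D (2 ^ k) = an r3 (2 ^ k) * kron D (2 ^ k) := by
  rw [kron_two_pow]
  rcases fund_cases hD with h | h
  · obtain ⟨l, rfl⟩ : ∃ l : ℤ, D = 4 * l + 1 := ⟨D / 4, by omega⟩
    have hne : 4 * l + 1 ≠ 0 := by omega
    have : Fact (Nat.Prime 2) := ⟨Nat.prime_two⟩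
    obtain ⟨g1, g2⟩ := loc_good (p := 2) l (by norm_num) (by push_cast; omega)
    have hX : LT (4 * l + 1) = fun n => (Vale.Agent.P014.tw l).LFunction n :=
      funext fun n => LT_odd l hne n
    have hk2 : k2 (4 * l + 1) = if l % 2 = 0 then 1 else -1 := by
      unfold k2
      rw [if_neg (by omega)]
      by_cases h2 : l % 2 = 0
      · rw [if_pos h2, if_pos (by omega)]
      · rw [if_neg h2, if_neg (by omega)]
    refine good_sign (X := LT (4 * l + 1)) (A := an r3) (p := 2) (ε := k2 (4 * l + 1))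
      ?_ (LT_one _) (Vale.Agent.P014.H687.hk T3).one (hX ▸ g2)
      (an_good Nat.prime_two (by norm_num)) ?_ k
    · rw [hk2]; split_ifs <;> norm_num
    · rw [hX, hk2, an_two T3]
      show (Vale.Agent.P014.tw l).LFunction 2 = _
      rw [g1, affCard_TW2]
      split_ifs <;> norm_num
  · have hk2 : k2 D = 0 := by
      unfold k2
      rw [if_pos (by omega)]
    cases k with
    | zero => simp [LT_one, (Vale.Agent.P014.H687.hk T3).one]
    | succ k => rw [loc2_add hD h k, hk2]; simp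

theorem st_three {D : ℤ} (hD : Fund1 D) (k : ℕ) :
    LT D (3 ^ k) = an r3 (3 ^ k) * kron D (3 ^ k) := by
  rw [kron_odd_pow D (by norm_num)]
  by_cases h : (3 : ℤ) ∣ D
  · have h0 : jacobiSym D 3 = 0 := jac_zero Nat.prime_three h
    cases k with
    | zero => simp [LT_one, (Vale.Agent.P014.H687.hk T3).one]
    | succ k => rw [loc3_add hD h k, h0]; simp
  · obtain ⟨g1, g2⟩ := loc3_good h
    refine good_sign (jac_sq Nat.prime_three h) (LT_one D) (Vale.Agent.P014.H687.hk T3).one g1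
      (an_good Nat.prime_three (by norm_num)) ?_ k
    rw [g2, an_three T3]
    ring

theorem st_17 {D : ℤ} (hD : Fund1 D) (k : ℕ) :
    LT D (17 ^ k) = an r3 (17 ^ k) * kron D (17 ^ k) := by
  rw [kron_odd_pow D (by norm_num), an_el, one_mul]
  by_cases h : (17 : ℤ) ∣ D
  · have h0 : jacobiSym D 17 = 0 := jac_zero (by norm_num) h
    cases k with
    | zero => simp [LT_one]
    | succ k => rw [loc17_add hD h k, h0]; simp
  · exact loc17_mult h k

/-- **the coefficients of all fundamental twists of the base curve** -/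
theorem lt17 {D : ℤ} (hD : Fund1 D) (n : ℕ) : LT D n = an r3 n * kron D n := by
  obtain ⟨z0, -, hmul, -⟩ := M2.pfEul (-7371 * D ^ 2) (-240570 * D ^ 3)
  have hA := Vale.Agent.P014.H687.hk T3
  induction n using Nat.recOnPosPrimePosCoprime with
  | prime_pow p k hp hk =>
    by_cases h17 : p = 17
    · subst h17; exact st_17 hD k
    by_cases hp2 : p = 2
    · subst hp2; exact st_two hD k
    by_cases hp3 : p = 3
    · subst hp3; exact st_three hD k
    refine st_big hp ?_ h17 hD k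
    have h4 : p ≠ 4 := by rintro rfl; norm_num at hp
    have := hp.two_le
    omega
  | zero => unfold LT; rw [z0, hA.zero, zero_mul]
  | one => rw [LT_one, hA.one, kron_one, one_mul]
  | coprime a b ha hb hab ih1 ih2 =>
    have e1 : LT D (a * b) = LT D a * LT D b := hmul a b hab
    rw [e1, ih1, ih2, hA.mul _ _ hab, kron_mul D (by omega) (by omega)]
    ring

end Vale.Agent.P004.H26
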